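import Vale.Agent.Lib.P146.Core
import Vale.Agent.Lib.P146.Count2

/-! Upgrade, modules V3, V4: the count with the factorial gain and the core with it. -/

set_option autoImplicit false
open scoped Classical

namespace Vale.Agent.Lib.P146

variable {n : ℕ}

/-- Module V3. Weighted count with the factorial gain. Exact solution of the peeling recursion
`g(k+1,e)=Σ_i C(k,i)(i+1)!2^i g(k-i,e-i)`: `g(k,e)=2^e (k)_e C(k-1,e) ≤ (2k²)^e/e!`. -/
theorem count_even2 (hn : 0 < n) {k K e : ℕ} (hk : k ≤ K) :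
    ∑ l : Fin k → Pr n, (if EvenM (msOf l) ∧ excessM (msOf l) = e then varpi (msOf l) else 0) ≤
      (k.factorial : ℝ) * 2 ^ k * (n : ℝ) ^ k * ((2 * (K : ℝ) ^ 2 / n) ^ e / (e.factorial : ℝ)) :=
  count_even2_aux hn hk

/-- Module V4: the core with the factorial gain. -/
theorem core_bound2 (hn : 0 < n) {K : ℕ} (hK : 1000 * K ^ 3 ≤ n) (dv : Multiset (Pr n) → ℝ)
    (ff : Multiset (Pr n) → Wt → ℝ) (Bd : ℕ → ℝ) (B0 : ℝ)
    (hsym : ∀ (σ : Equiv.Perm (Fin n)) M, dv (mapL σ M) = dv M)
    (heven : ∀ M, ¬ EvenM M → dv M = 0)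
    (hdec : ∀ M₀ Mc ν, IsCyc Mc ν → Reg2M Mc (labelsM M₀) →
      Tav dv (M₀ + Mc) ^ 2 = zz ν * ff M₀ ν ^ 2)
    (hB : ∀ M₀, M₀ ≠ 0 → EvenM M₀ → NCM M₀ → Multiset.card M₀ ≤ K → ∀ s : Finset Wt,
      (∀ ν ∈ s, Multiset.card M₀ + dg ν ≤ K) → ∑ ν ∈ s, ff M₀ ν ^ 2 ≤ Bd (excessM M₀) ^ 2)
    (hB0 : ∀ s : Finset Wt, (∀ ν ∈ s, ν ≠ 0 ∧ dg ν ≤ K) → ∑ ν ∈ s, ff 0 ν ^ 2 ≤ B0 ^ 2) :
    ∑ k ∈ Finset.range K, (((k + 1).factorial : ℝ) * 2 ^ (k + 1) * (n : ℝ) ^ (k + 1))⁻¹ *
        ∑ l : Fin (k + 1) → Pr n, dv (msOf l) ^ 2 ≤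
      16 * (B0 ^ 2 + K * ∑ e ∈ Finset.range K, ((2 * (K : ℝ) ^ 2 / n) ^ (e + 1) / ((e + 1).factorial : ℝ)) * Bd (e + 1) ^ 2) := by
  -- step 1: level by level
  have h1 : ∑ k ∈ Finset.range K, (((k + 1).factorial : ℝ) * 2 ^ (k + 1) * (n : ℝ) ^ (k + 1))⁻¹ *
        ∑ l : Fin (k + 1) → Pr n, dv (msOf l) ^ 2 ≤
      ∑ k ∈ Finset.range K, (16 * ∑ q ∈ Finset.range (k + 1 + 1), core_Tq ff q (k + 1 - q)) := by
    refine Finset.sum_le_sum fun k hk => ?_
    have hk' : k + 1 ≤ K := Finset.mem_range.1 hk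
    have hk3 : 1000 * (k + 1) ^ 3 ≤ n :=
      le_trans (Nat.mul_le_mul_left _ (Nat.pow_le_pow_left hk' 3)) hK
    exact core_level_norm hn hk3 dv ff hsym heven hdec
  refine h1.trans ?_
  rw [← Finset.mul_sum]
  refine mul_le_mul_of_nonneg_left ?_ (by norm_num)
  -- step 2: split off `q = 0`
  have h2 : ∑ k ∈ Finset.range K, ∑ q ∈ Finset.range (k + 1 + 1), core_Tq ff q (k + 1 - q) =
      ∑ k ∈ Finset.range K, core_Tq ff 0 (k + 1) +
        ∑ k ∈ Finset.range K, ∑ q ∈ Finset.range (k + 1), core_Tq ff (q + 1) (k - q) := by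
    rw [← Finset.sum_add_distrib]
    refine Finset.sum_congr rfl fun k _ => ?_
    rw [Finset.sum_range_succ', add_comm]
    simp only [Nat.add_sub_add_right, Nat.sub_zero]
  rw [h2]
  refine add_le_add ?_ ?_
  · -- the term `q = 0`
    have h3 : ∀ k, core_Tq ff 0 (k + 1) = ∑ ν ∈ cycT (k + 1), ff 0 ν ^ 2 := by
      intro k
      simp [core_Tq, core_Fq_zero]
    simp only [h3]
    rw [← Finset.sum_biUnion (core_cyc_disj _ _ (fun a _ b _ hab => by omega))]
    refine hB0 _ fun ν hν => ?_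
    obtain ⟨k, hk, hνk⟩ := Finset.mem_biUnion.1 hν
    have hd := dg_of_mem_cycT hνk
    have hk' := Finset.mem_range.1 hk
    refine ⟨?_, by omega⟩
    rintro rfl
    simp [dg] at hd
  · -- the terms `q ≥ 1`
    have h4 : ∑ k ∈ Finset.range K, ∑ q ∈ Finset.range (k + 1), core_Tq ff (q + 1) (k - q) =
        ∑ q ∈ Finset.range K, ∑ k ∈ Finset.Ico q K, core_Tq ff (q + 1) (k - q) := by
      refine Finset.sum_comm' fun k q => ?_
      simp only [Finset.mem_range, Finset.mem_Ico]
      omega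
    rw [h4]
    have h5 : ∀ q ∈ Finset.range K, ∑ k ∈ Finset.Ico q K, core_Tq ff (q + 1) (k - q) ≤
        ∑ e ∈ Finset.range K, ((2 * (K : ℝ) ^ 2 / n) ^ (e + 1) / ((e + 1).factorial : ℝ)) * Bd (e + 1) ^ 2 := by
      intro q hq
      have hqK : q + 1 ≤ K := Finset.mem_range.1 hq
      simp only [core_Tq]
      rw [← Finset.mul_sum]
      -- bound for one tuple
      have h6 : ∀ l₀ : Fin (q + 1) → Pr n,
          ∑ k ∈ Finset.Ico q K, (if EvenM (msOf l₀) ∧ NCM (msOf l₀) then
            varpi (msOf l₀) * ∑ ν ∈ cycT (k - q), ff (msOf l₀) ν ^ 2 else 0) ≤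
          ∑ e ∈ Finset.range K, Bd (e + 1) ^ 2 *
            (if EvenM (msOf l₀) ∧ excessM (msOf l₀) = e + 1 then varpi (msOf l₀) else 0) := by
        intro l₀
        by_cases h : EvenM (msOf l₀) ∧ NCM (msOf l₀)
        · simp only [if_pos h]
          rw [← Finset.mul_sum]
          rw [← Finset.sum_biUnion (core_cyc_disj _ _ (fun a ha b hb hab => by
            have h1 := (Finset.mem_Ico.1 (Finset.mem_coe.1 ha)).1
            have h2 := (Finset.mem_Ico.1 (Finset.mem_coe.1 hb)).1
            have hab' : a - q = b - q := hab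
            omega))]
          have hcard : Multiset.card (msOf l₀) = q + 1 := core_card_msOf l₀
          have hne : msOf l₀ ≠ 0 := by
            intro h0
            rw [h0] at hcard
            simp at hcard
          have h8 := hB _ hne h.1 h.2 (by omega)
            ((Finset.Ico q K).biUnion fun k => cycT (k - q)) (by
              intro ν hν
              obtain ⟨k, hk, hνk⟩ := Finset.mem_biUnion.1 hν
              have hd := dg_of_mem_cycT hνk
              have hk' := Finset.mem_Ico.1 hk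
              omega)
          obtain ⟨h9, h10⟩ := excess_pos _ hne h.1 h.2
          have he : excessM (msOf l₀) - 1 ∈ Finset.range K := by
            rw [Finset.mem_range]; omega
          have h11 : Bd (excessM (msOf l₀)) ^ 2 * varpi (msOf l₀) ≤
              ∑ e ∈ Finset.range K, Bd (e + 1) ^ 2 *
                (if EvenM (msOf l₀) ∧ excessM (msOf l₀) = e + 1 then varpi (msOf l₀) else 0) := by
            have h12 := Finset.single_le_sum (f := fun e => Bd (e + 1) ^ 2 *
                (if EvenM (msOf l₀) ∧ excessM (msOf l₀) = e + 1 then varpi (msOf l₀) else 0))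
              (fun e _ => mul_nonneg (sq_nonneg _) (by
                split_ifs
                · exact core_varpi_nonneg _
                · exact le_rfl)) he
            have h13 : excessM (msOf l₀) - 1 + 1 = excessM (msOf l₀) := by omega
            rw [h13, if_pos ⟨h.1, rfl⟩] at h12
            exact h12
          refine le_trans ?_ h11
          rw [mul_comm]
          exact mul_le_mul_of_nonneg_right h8 (core_varpi_nonneg _)
        · simp only [if_neg h, Finset.sum_const_zero]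
          refine Finset.sum_nonneg fun e _ => mul_nonneg (sq_nonneg _) ?_
          split_ifs
          · exact core_varpi_nonneg _
          · exact le_rfl
      have h14 : ∑ k ∈ Finset.Ico q K, core_Fq ff (q + 1) (k - q) ≤
          ∑ e ∈ Finset.range K, Bd (e + 1) ^ 2 *
            ∑ l₀ : Fin (q + 1) → Pr n,
              (if EvenM (msOf l₀) ∧ excessM (msOf l₀) = e + 1 then varpi (msOf l₀) else 0) := by
        unfold core_Fq
        rw [Finset.sum_comm]
        refine (Finset.sum_le_sum fun l₀ _ => h6 l₀).trans (le_of_eq ?_)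
        rw [Finset.sum_comm]
        refine Finset.sum_congr rfl fun e _ => ?_
        rw [Finset.mul_sum]
      have hnorm : 0 < ((q + 1).factorial : ℝ) * 2 ^ (q + 1) * (n : ℝ) ^ (q + 1) := by
        have : (0 : ℝ) < n := by exact_mod_cast hn
        positivity
      refine (mul_le_mul_of_nonneg_left h14 (inv_nonneg.2 hnorm.le)).trans ?_
      rw [Finset.mul_sum]
      refine Finset.sum_le_sum fun e _ => ?_
      have h15 := count_even2 hn (k := q + 1) (K := K) (e := e + 1) hqK
      rw [inv_mul_le_iff₀ hnorm]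
      have h16 : Bd (e + 1) ^ 2 * ∑ l₀ : Fin (q + 1) → Pr n,
            (if EvenM (msOf l₀) ∧ excessM (msOf l₀) = e + 1 then varpi (msOf l₀) else 0) ≤
          Bd (e + 1) ^ 2 * (((q + 1).factorial : ℝ) * 2 ^ (q + 1) * (n : ℝ) ^ (q + 1) *
            ((2 * (K : ℝ) ^ 2 / n) ^ (e + 1) / ((e + 1).factorial : ℝ))) :=
        mul_le_mul_of_nonneg_left h15 (sq_nonneg _)
      refine h16.trans (le_of_eq ?_)
      ring
    refine (Finset.sum_le_sum h5).trans (le_of_eq ?_)
    rw [Finset.sum_const, Finset.card_range, nsmul_eq_mul]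

end Vale.Agent.Lib.P146
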